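import Vale.Agent.P253Z.Spec

/-!
# P253Y, block H2: from the universal covering to the manifold; statements
-/

open scoped Manifold ContDiff Bundle
open Bundle MeasureTheory Vale.Agent.P253.Mfd Vale.Agent.P253Z
open Vale.Agent.P272.K (Cm)

namespace Vale.Agent.P253Y.H2

/-- `M` has global coordinates which are ratios of tame sections -/
def UNI (n : ℕ) {M : Type} [MetricSpace M] [ChartedSpace (Cm n) M]
    [RiemannianBundle (fun x : M => TangentSpace 𝓘(ℝ, Cm n) x)] [MeasurableSpace M]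
    (μ : Measure M) : Prop :=
  ∃ (p : M) (F : Fr n μ p) (Φ : M ≃ₘ^1⟮𝓘(ℂ, Cm n), 𝓘(ℂ, Cm n)⟯ Cm n),
    ∀ i, ∃ k, ∃ a ∈ F.Tame k, ∃ b ∈ F.Tame k, b ≠ 0 ∧ ∀ q, b q ≠ 0 → Φ q i = a q / b q

/-- the theorem for simply connected manifolds -/
def SC (n : ℕ) : Prop :=
  ∀ (M : Type) [MetricSpace M] [ChartedSpace (Cm n) M] [IsManifold 𝓘(ℂ, Cm n) 1 M]
    [IsManifold 𝓘(ℝ, Cm n) ∞ M] [RiemannianBundle fun x : M => TangentSpace 𝓘(ℝ, Cm n) x]
    [IsContMDiffRiemannianBundle 𝓘(ℝ, Cm n) ∞ (Cm n) fun x : M => TangentSpace 𝓘(ℝ, Cm n) x]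
    [IsRiemannianManifold 𝓘(ℝ, Cm n) M] [CompleteSpace M] [ConnectedSpace M] [NoncompactSpace M]
    [MeasurableSpace M] [BorelSpace M] (μ : Measure M),
    Ctx n μ → SimplyConnectedSpace M → UNI n μ

end Vale.Agent.P253Y.H2
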