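import Vale.Agent.P253Z.T2.Liou.Poly
import Vale.Agent.P253Z.VS.Alg

/-!
# P253Y, block H2: entire algebraic functions are polynomials; transitivity of algebraicity
-/

open scoped Topology
open Set Metric Filter Polynomial Vale.Agent.P253Z Vale.Agent.P253Z.VS

noncomputable section

namespace Vale.Agent.P253Y.H2

variable {n : ℕ}

theorem dense_ne {Q : MvPolynomial (Fin n) ℂ} (hQ : Q ≠ 0) :
    Dense {z : Fin n → ℂ | MvPolynomial.eval z Q ≠ 0} := by
  intro c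
  by_contra h
  rw [mem_closure_iff_frequently, not_frequently] at h
  refine hQ (MvPolynomial.funext fun z => ?_)
  have h7 : AnalyticOnNhd ℂ (fun z : Fin n → ℂ => MvPolynomial.eval z Q) univ :=
    AnalyticOnNhd.eval_mvPolynomial Q
  have h8 := h7.eqOn_zero_of_preconnected_of_eventuallyEq_zero isPreconnected_univ
    (mem_univ c) (by filter_upwards [h] with w hw using not_not.1 hw)
  simpa using h8 (mem_univ z)

/-- a continuous ratio of polynomials is a polynomial -/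
theorem div_poly {h : (Fin n → ℂ) → ℂ} (hh : Continuous h) (a : MvPolynomial (Fin n) ℂ) :
    a ≠ 0 → ∀ R : MvPolynomial (Fin n) ℂ,
      (∀ z, MvPolynomial.eval z a * h z = MvPolynomial.eval z R) →
      ∃ R' : MvPolynomial (Fin n) ℂ, ∀ z, h z = MvPolynomial.eval z R' := by
  refine UniqueFactorizationMonoid.induction_on_prime a (fun h0 => absurd rfl h0) ?_ ?_
  · rintro u ⟨u, rfl⟩ - R hR
    refine ⟨↑u⁻¹ * R, fun z => ?_⟩
    rw [map_mul, ← hR, ← mul_assoc, ← map_mul, Units.inv_mul, map_one, one_mul]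
  · intro a q ha hq ih _ R hR
    have h1 : R ∈ (Ideal.span {q}).radical := by
      rw [← MvPolynomial.vanishingIdeal_zeroLocus_eq_radical (K := ℂ),
        MvPolynomial.mem_vanishingIdeal_iff]
      intro z hz
      have h2 := hz q (Ideal.mem_span_singleton_self q)
      simp only [MvPolynomial.aeval_eq_eval] at h2 ⊢
      rw [← hR, map_mul, h2, zero_mul, zero_mul]
    rw [((Ideal.span_singleton_prime hq.ne_zero).2 hq).radical, Ideal.mem_span_singleton] at h1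
    obtain ⟨R, rfl⟩ := h1
    refine ih ha R fun z => ?_
    refine congrFun (Continuous.ext_on (dense_ne hq.ne_zero)
      (f := fun z => MvPolynomial.eval z a * h z) (g := fun z => MvPolynomial.eval z R)
      ((MvPolynomial.continuous_eval a).mul hh) (MvPolynomial.continuous_eval R) fun w hw => ?_) z
    have h3 := hR w
    rw [map_mul, map_mul, mul_assoc] at h3
    exact mul_left_cancel₀ hw h3

theorem root_bound (d : ℕ) (c : ℕ → ℂ) (t : ℂ) (h : ∑ k ∈ Finset.range (d + 1), c k * t ^ k = 0) :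
    ‖c d * t‖ ≤ ∑ k ∈ Finset.range (d + 1), ‖c k‖ := by
  rw [Finset.sum_range_succ] at h ⊢
  have h0 : 0 ≤ ∑ k ∈ Finset.range d, ‖c k‖ := Finset.sum_nonneg fun _ _ => norm_nonneg _
  by_cases ht : ‖t‖ ≤ 1
  · rw [norm_mul]
    nlinarith [norm_nonneg (c d), norm_nonneg t]
  · push Not at ht
    have h1 : ‖c d * t‖ * ‖t‖ ^ d ≤ (∑ k ∈ Finset.range d, ‖c k‖) * ‖t‖ ^ d := by
      have h2 : c d * t * t ^ d = -∑ k ∈ Finset.range d, c k * t ^ (k + 1) := by
        have h3 : ∑ k ∈ Finset.range d, c k * t ^ (k + 1) =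
            (∑ k ∈ Finset.range d, c k * t ^ k) * t := by
          rw [Finset.sum_mul]
          exact Finset.sum_congr rfl fun k _ => by ring
        rw [h3]
        linear_combination t * h
      rw [← norm_pow, ← norm_mul, h2, norm_neg, Finset.sum_mul]
      refine (norm_sum_le _ _).trans (Finset.sum_le_sum fun k hk => ?_)
      rw [norm_mul, norm_pow, norm_pow]
      exact mul_le_mul_of_nonneg_left
        (pow_le_pow_right₀ ht.le (Finset.mem_range.1 hk)) (norm_nonneg _)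
    have h4 := le_of_mul_le_mul_right h1 (by positivity)
    linarith [norm_nonneg (c d)]

theorem grow_sum (d : ℕ) (c : ℕ → MvPolynomial (Fin n) ℂ) : ∃ (C : ℝ) (N : ℕ), 0 ≤ C ∧
    ∀ z : Fin n → ℂ, ∑ k ∈ Finset.range d, ‖MvPolynomial.eval z (c k)‖ ≤ C * (1 + ‖z‖) ^ N := by
  induction d with
  | zero => exact ⟨0, 0, le_rfl, fun z => by simp⟩
  | succ d ih =>
    obtain ⟨C, N, hC, h⟩ := ih
    obtain ⟨C', N', hC', h'⟩ := T2.Liou.grow (c d)
    refine ⟨C + C', N + N', by positivity, fun z => ?_⟩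
    have h1 : (1 : ℝ) ≤ 1 + ‖z‖ := by linarith [norm_nonneg z]
    rw [Finset.sum_range_succ, add_mul]
    refine add_le_add ((h z).trans ?_) ((h' z).trans ?_)
    · exact mul_le_mul_of_nonneg_left (pow_le_pow_right₀ h1 (by omega)) hC
    · exact mul_le_mul_of_nonneg_left (pow_le_pow_right₀ h1 (by omega)) hC'

/-- an entire function that is algebraic over the polynomials is a polynomial -/
theorem ent {h : (Fin n → ℂ) → ℂ} (hh : Differentiable ℂ h) {S : (MvPolynomial (Fin n) ℂ)[X]}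
    (hS : S ≠ 0) (hr : ∀ z, ev S z (h z) = 0) :
    ∃ R : MvPolynomial (Fin n) ℂ, ∀ z, h z = MvPolynomial.eval z R := by
  obtain ⟨C, N, -, hC⟩ := grow_sum (S.natDegree + 1) S.coeff
  have hd : Differentiable ℂ fun z : Fin n → ℂ => MvPolynomial.eval z S.leadingCoeff :=
    fun z => (AnalyticOnNhd.eval_mvPolynomial S.leadingCoeff z (mem_univ z)).differentiableAt
  obtain ⟨R, hR⟩ := T2.Liou.many N n (fun z => MvPolynomial.eval z S.leadingCoeff * h z) C
    (hd.mul hh) fun z => by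
      refine (root_bound S.natDegree (fun k => MvPolynomial.eval z (S.coeff k)) (h z) ?_).trans
        (hC z)
      have h1 := hr z
      rwa [ev, eval_map, eval₂_eq_sum_range] at h1
  exact div_poly hh.continuous _ (leadingCoeff_ne_zero.2 hS) R hR

/-- transitivity, in a domain -/
theorem trans_dom {L : Type} [CommRing L] [IsDomain L] [Algebra ℂ L] (x z : Fin n → L) (w : L)
    (hz : Function.Injective (MvPolynomial.aeval z : MvPolynomial (Fin n) ℂ →ₐ[ℂ] L))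
    (h1 : ∀ j, ∃ Q : (MvPolynomial (Fin n) ℂ)[X], Q ≠ 0 ∧
      Q.eval₂ (MvPolynomial.aeval x : MvPolynomial (Fin n) ℂ →ₐ[ℂ] L) (z j) = 0)
    (h2 : ∃ Q : (MvPolynomial (Fin n) ℂ)[X], Q ≠ 0 ∧
      Q.eval₂ (MvPolynomial.aeval z : MvPolynomial (Fin n) ℂ →ₐ[ℂ] L) w = 0) :
    ∃ Q : (MvPolynomial (Fin n) ℂ)[X], Q ≠ 0 ∧
      Q.eval₂ (MvPolynomial.aeval x : MvPolynomial (Fin n) ℂ →ₐ[ℂ] L) w = 0 := by
  let _ : Algebra (MvPolynomial (Fin n) ℂ) L :=
    (MvPolynomial.aeval x : MvPolynomial (Fin n) ℂ →ₐ[ℂ] L).toRingHom.toAlgebra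
  let S := Subalgebra.algebraicClosure (MvPolynomial (Fin n) ℂ) L
  have hmem : ∀ d : MvPolynomial (Fin n) ℂ, MvPolynomial.aeval z d ∈ S := by
    intro d
    induction d using MvPolynomial.induction_on with
    | C a =>
      have : MvPolynomial.aeval z (MvPolynomial.C a : MvPolynomial (Fin n) ℂ) =
          algebraMap (MvPolynomial (Fin n) ℂ) L (MvPolynomial.C a) := by
        show _ = (MvPolynomial.aeval x : MvPolynomial (Fin n) ℂ →ₐ[ℂ] L) (MvPolynomial.C a)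
        simp
      rw [this]
      exact S.algebraMap_mem _
    | add p q hp hq => rw [map_add]; exact add_mem hp hq
    | mul_X p i hp =>
      rw [map_mul, MvPolynomial.aeval_X]
      exact mul_mem hp (h1 i)
  let ζ : MvPolynomial (Fin n) ℂ →+* S :=
    (MvPolynomial.aeval z : MvPolynomial (Fin n) ℂ →ₐ[ℂ] L).toRingHom.codRestrict S hmem
  have hζ : Function.Injective ζ := fun a b hab => hz (congrArg Subtype.val hab)
  obtain ⟨Q, hQ, hw⟩ := h2
  have h3 : IsAlgebraic S w := ⟨Q.map ζ, (Polynomial.map_ne_zero_iff hζ).2 hQ, by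
    rw [aeval_def, eval₂_map]
    exact hw⟩
  have : Algebra.IsAlgebraic (MvPolynomial (Fin n) ℂ) S :=
    ⟨fun s => (Subalgebra.isAlgebraic_iff_isAlgebraic_val).2 s.2⟩
  exact h3.restrictScalars (MvPolynomial (Fin n) ℂ)

/-- transitivity, for an algebra with evaluations -/
theorem trans_ev {X R L : Type} [CommRing R] [Algebra ℂ R] [CommRing L] [IsDomain L] [Algebra ℂ L]
    (𝓕 : Filter X) (ρ : X → R →ₐ[ℂ] ℂ) (pr : R →ₐ[ℂ] L)
    (hq0 : ∀ u, pr u = 0 ↔ ∀ᶠ y in 𝓕, ρ y u = 0) (x z : Fin n → R) (w : R)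
    (hz : ∀ d : MvPolynomial (Fin n) ℂ,
      (∀ᶠ y in 𝓕, MvPolynomial.eval (fun i => ρ y (z i)) d = 0) → d = 0)
    (h1 : ∀ j, ∃ Q : (MvPolynomial (Fin n) ℂ)[X], Q ≠ 0 ∧
      ∀ᶠ y in 𝓕, ev Q (fun i => ρ y (x i)) (ρ y (z j)) = 0)
    (h2 : ∃ Q : (MvPolynomial (Fin n) ℂ)[X], Q ≠ 0 ∧
      ∀ᶠ y in 𝓕, ev Q (fun i => ρ y (z i)) (ρ y w) = 0) :
    ∃ Q : (MvPolynomial (Fin n) ℂ)[X], Q ≠ 0 ∧
      ∀ᶠ y in 𝓕, ev Q (fun i => ρ y (x i)) (ρ y w) = 0 := by
  have key : ∀ (f : Fin n → R) (Q : (MvPolynomial (Fin n) ℂ)[X]) (u : R),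
      Q.eval₂ (MvPolynomial.aeval fun i => pr (f i) : MvPolynomial (Fin n) ℂ →ₐ[ℂ] L) (pr u) = 0 ↔
        ∀ᶠ y in 𝓕, ev Q (fun i => ρ y (f i)) (ρ y u) = 0 := by
    intro f Q u
    let φ₀ : MvPolynomial (Fin n) ℂ →+* R := (MvPolynomial.aeval f : _ →ₐ[ℂ] R)
    have hρφ : ∀ y, (ρ y : R →+* ℂ).comp φ₀ = MvPolynomial.eval fun i => ρ y (f i) := by
      intro y
      refine MvPolynomial.ringHom_ext (fun c => ?_) fun i => ?_
      · simp [φ₀]
      · simp [φ₀]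
    have hval : ∀ y, ρ y (Q.eval₂ φ₀ u) = ev Q (fun i => ρ y (f i)) (ρ y u) := by
      intro y
      have h4 := hom_eval₂ Q φ₀ (ρ y : R →+* ℂ) u
      rw [hρφ] at h4
      rw [ev, eval_map]
      exact h4
    have h3 : ((MvPolynomial.aeval fun i => pr (f i) :
        MvPolynomial (Fin n) ℂ →ₐ[ℂ] L) : MvPolynomial (Fin n) ℂ →+* L) =
        (pr : R →+* L).comp φ₀ := by
      refine MvPolynomial.ringHom_ext (fun c => ?_) fun i => ?_
      · simp [φ₀]
      · simp [φ₀]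
    rw [h3]
    have h4 := hom_eval₂ Q φ₀ (pr : R →+* L) u
    refine Iff.trans (Eq.congr_left h4.symm) ((hq0 _).trans ?_)
    simp only [hval]
  have inj : ∀ f : Fin n → R, (∀ d : MvPolynomial (Fin n) ℂ,
      (∀ᶠ y in 𝓕, MvPolynomial.eval (fun i => ρ y (f i)) d = 0) → d = 0) →
      Function.Injective (MvPolynomial.aeval fun i => pr (f i) :
        MvPolynomial (Fin n) ℂ →ₐ[ℂ] L) := by
    intro f hf
    rw [injective_iff_map_eq_zero]
    intro d hd
    refine hf d ?_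
    have h3 := (key f (C d) 0).1 (by rw [eval₂_C]; exact hd)
    simpa only [ev, Polynomial.map_C, eval_C] using h3
  obtain ⟨Q, q1, q2⟩ := trans_dom (fun i => pr (x i)) (fun i => pr (z i)) (pr w)
    (inj z hz) (fun j => (h1 j).imp fun Q hQ => ⟨hQ.1, (key x Q _).2 hQ.2⟩)
    (h2.imp fun Q hQ => ⟨hQ.1, (key z Q w).2 hQ.2⟩)
  exact ⟨Q, q1, (key x Q w).1 q2⟩

/-- transitivity, for an algebra of functions -/
theorem trans_sub {X : Type} (𝓕 : Filter X) (R : Subalgebra ℂ (X → ℂ)) (I : Ideal R) [I.IsPrime]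
    (hI : ∀ u : R, u ∈ I ↔ ∀ᶠ y in 𝓕, (u : X → ℂ) y = 0) (x z : X → Fin n → ℂ) (w : X → ℂ)
    (mx : ∀ i, (fun y => x y i) ∈ R) (mz : ∀ i, (fun y => z y i) ∈ R) (mw : w ∈ R)
    (hz : ∀ d : MvPolynomial (Fin n) ℂ, (∀ᶠ y in 𝓕, MvPolynomial.eval (z y) d = 0) → d = 0)
    (h1 : ∀ j, ∃ Q : (MvPolynomial (Fin n) ℂ)[X], Q ≠ 0 ∧ ∀ᶠ y in 𝓕, ev Q (x y) (z y j) = 0)
    (h2 : ∃ Q : (MvPolynomial (Fin n) ℂ)[X], Q ≠ 0 ∧ ∀ᶠ y in 𝓕, ev Q (z y) (w y) = 0) :
    ∃ Q : (MvPolynomial (Fin n) ℂ)[X], Q ≠ 0 ∧ ∀ᶠ y in 𝓕, ev Q (x y) (w y) = 0 :=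
  trans_ev (R := R) (L := R ⧸ I) 𝓕 (fun y => (Pi.evalAlgHom ℂ (fun _ : X => ℂ) y).comp R.val)
    (Ideal.Quotient.mkₐ ℂ I) (fun u => by
      rw [Ideal.Quotient.mkₐ_eq_mk, Ideal.Quotient.eq_zero_iff_mem]
      exact hI u)
    (fun i => ⟨_, mx i⟩) (fun i => ⟨_, mz i⟩) ⟨w, mw⟩ hz h1 h2

end Vale.Agent.P253Y.H2
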