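import Mathlib

/-!
# A polynomial map of prime period has a fixed point
-/

open MvPolynomial

namespace Vale.Agent.P253Y.H2

namespace Fx

theorem jac_int : IsJacobsonRing ℤ := by
  rw [isJacobsonRing_iff_prime_eq]
  intro P hP
  by_cases h0 : P = ⊥
  · subst h0
    refine eq_bot_iff.2 fun x hx => ?_
    have h1 := Int.isUnit_iff.1 (Ideal.mem_jacobson_bot.1 hx x)
    have h2 := mul_self_nonneg x
    exact mul_self_eq_zero.1 (by omega)
  · have : P.IsMaximal := IsPrime.to_maximal_ideal h0
    exact Ideal.jacobson_eq_self_of_isMaximal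

theorem finite (L : Type) [Field L] [Algebra.FiniteType ℤ L] : Finite L := by
  have := jac_int
  have : Module.Finite ℤ L := finite_of_finite_type_of_isJacobsonRing ℤ L
  obtain ⟨p, hp⟩ := CharP.exists L
  have hp0 : p ≠ 0 := by
    rintro rfl
    have : CharZero L := CharP.charP_to_charZero L
    exact Int.not_isField (isField_of_isIntegral_of_isField (R := ℤ) (S := L)
      (algebraMap ℤ L).injective_int (Field.toIsField L))
  have : NeZero p := ⟨hp0⟩
  let _ : Algebra (ZMod p) L := ZMod.algebra L p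
  have : IsScalarTower ℤ (ZMod p) L := IsScalarTower.of_algebraMap_eq fun x => by simp
  have : Module.Finite (ZMod p) L := Module.Finite.of_restrictScalars_finite ℤ (ZMod p) L
  exact Module.finite_of_finite (ZMod p)

theorem finite' {B L : Type} [CommRing B] [a : Algebra ℤ B] [Field L] [Algebra.FiniteType ℤ B]
    (g : B →+* L) (hg : Function.Surjective g) : Finite L := by
  obtain rfl : a = Ring.toIntAlgebra B := Subsingleton.elim _ _
  have : Algebra.FiniteType ℤ L := .of_surjective g.toIntAlgHom hg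
  exact finite L

variable {σ R S : Type} [CommRing R] [CommRing S]

/-- the iterates of a polynomial map -/
noncomputable def it (P : σ → MvPolynomial σ R) : ℕ → σ → MvPolynomial σ R
  | 0 => X
  | k + 1 => fun i => bind₁ (it P k) (P i)

theorem map_it (φ : R →+* S) (P : σ → MvPolynomial σ R) (k : ℕ) (i : σ) :
    map φ (it P k i) = it (fun j => map φ (P j)) k i := by
  induction k generalizing i with
  | zero => exact map_X φ i
  | succ k ih => simp only [it, map_bind₁, ih]

theorem eval_it (P : σ → MvPolynomial σ R) (k : ℕ) (z : σ → R) (i : σ) :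
    eval z (it P k i) = (fun w i => eval w (P i))^[k] z i := by
  induction k generalizing i with
  | zero => exact eval_X i
  | succ k ih =>
    rw [Function.iterate_succ_apply', ← funext ih]
    exact eval₂Hom_bind₁ _ _ _ _

theorem fin_ring [Fintype σ] [Finite R] {p : ℕ} (hp : p.Prime) (hu : IsUnit (p : R))
    (P : σ → MvPolynomial σ R) (h : ∀ i, it P p i = X i) : ∃ z, ∀ i, eval z (P i) = z i := by
  classical
  have := Fact.mk hp
  have := Fintype.ofFinite R
  let f : Function.End (σ → R) := fun w i => eval w (P i)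
  have h1 : f ^ p ^ 1 = 1 := by
    rw [pow_one]
    refine (hom_coe_pow (fun g : Function.End (σ → R) => g) rfl (fun _ _ => rfl) f p).trans ?_
    funext z i
    exact (eval_it P p z i).symm.trans ((congrArg _ (h i)).trans (eval_X i))
  have h2 := Equiv.Perm.card_fixedPoints_modEq h1
  by_contra hn
  have : IsEmpty f.fixedPoints := ⟨fun z => hn ⟨z.1, congrFun z.2⟩⟩
  have h3 := Nat.modEq_zero_iff_dvd.1 (h2.trans (congrArg (· % p) Fintype.card_eq_zero))
  rw [Fintype.card_fun] at h3
  exact (isUnit_iff_not_dvd_char R p).1 hu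
    ((prime_dvd_char_iff_dvd_card p).2 (hp.dvd_of_dvd_pow h3))

end Fx

open Fx

theorem fix {n p : ℕ} (hp : p.Prime) (P : Fin n → MvPolynomial (Fin n) ℂ)
    (h : ∀ z : Fin n → ℂ, (fun w i => MvPolynomial.eval w (P i))^[p] z = z) :
    ∃ z : Fin n → ℂ, ∀ i, MvPolynomial.eval z (P i) = z i := by
  classical
  by_contra hn
  obtain ⟨a, ha⟩ : ∃ a : Fin n → MvPolynomial (Fin n) ℂ, ∑ i, a i * (P i - X i) = 1 := by
    refine Ideal.mem_span_range_iff_exists_fun.1 ((Ideal.eq_top_iff_one _).1 ?_)
    by_contra h1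
    obtain ⟨M, h2, h3⟩ := Ideal.exists_le_maximal _ h1
    obtain ⟨z, rfl⟩ := isMaximal_iff_eq_vanishingIdeal_singleton.1 h2
    refine hn ⟨z, fun i => ?_⟩
    have := (mem_vanishingIdeal_singleton_iff z _).1 (h3 (Ideal.subset_span ⟨i, rfl⟩))
    rwa [map_sub, aeval_X, sub_eq_zero] at this
  let s : Finset ℂ := insert (p : ℂ)⁻¹ (Finset.univ.biUnion fun i => (P i).coeffs ∪ (a i).coeffs)
  let A := Algebra.adjoin ℤ (s : Set ℂ)
  have : Algebra.FiniteType ℤ A := (Subalgebra.fg_iff_finiteType A).1 ⟨s, rfl⟩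
  have h1 : ∀ Q : MvPolynomial (Fin n) ℂ, Q.coeffs ⊆ s → ∃ Q', map (algebraMap A ℂ) Q' = Q :=
    fun Q hQ => mem_range_map_iff_coeffs_subset.2 fun x hx =>
      ⟨⟨x, Algebra.subset_adjoin (hQ hx)⟩, rfl⟩
  choose P' hP using fun i => h1 (P i) fun x hx => Finset.mem_insert_of_mem
    (Finset.mem_biUnion.2 ⟨i, Finset.mem_univ i, Finset.mem_union_left _ hx⟩)
  choose a' ha' using fun i => h1 (a i) fun x hx => Finset.mem_insert_of_mem
    (Finset.mem_biUnion.2 ⟨i, Finset.mem_univ i, Finset.mem_union_right _ hx⟩)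
  have h2 := map_injective (σ := Fin n) (algebraMap A ℂ) Subtype.val_injective
  have h3 : ∀ i, it P' p i = X i := fun i => h2 (by
    rw [map_it, map_X, funext hP]
    exact MvPolynomial.funext fun z => by rw [eval_it, h, eval_X])
  have h4 : ∑ i, a' i * (P' i - X i) = 1 := h2 (by
    simpa only [map_sum, map_mul, map_sub, map_X, map_one, hP, ha'] using ha)
  have h5 : IsUnit (p : A) := IsUnit.of_mul_eq_one
    ⟨_, Algebra.subset_adjoin (Finset.mem_insert_self _ _)⟩
    (Subtype.ext (mul_inv_cancel₀ (Nat.cast_ne_zero.2 hp.ne_zero)))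
  obtain ⟨m, hm⟩ := Ideal.exists_maximal A
  let _ := Ideal.Quotient.field m
  have := finite' (Ideal.Quotient.mk m) Ideal.Quotient.mk_surjective
  obtain ⟨z, hz⟩ := fin_ring hp (by simpa using h5.map (Ideal.Quotient.mk m))
    (fun i => map (Ideal.Quotient.mk m) (P' i)) fun i => by rw [← map_it, h3, map_X]
  have h6 := congrArg (fun Q => eval z (map (Ideal.Quotient.mk m) Q)) h4
  simp [hz] at h6

end Vale.Agent.P253Y.H2
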