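import Vale.Agent.P253Z.Main
import Vale.Agent.P253Y.H2.Ent

/-!
# P253Y, block H2: holomorphic isometries are polynomial in the global coordinates
-/

open scoped Manifold ContDiff Bundle ENNReal Topology
open Bundle IsManifold MeasureTheory Set Filter Vale.Agent.P253.Mfd Vale.Agent.P253Z
open Vale.Agent.P253Z.VS Vale.Agent.P253Z.Iso
open Vale.Agent.P272.K (Cm jacM Chart)

set_option linter.unusedSectionVars false

noncomputable section

namespace Vale.Agent.P253Y.H2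

variable {n : ℕ} {M : Type} [MetricSpace M] [ChartedSpace (Cm n) M]
  [IsManifold 𝓘(ℂ, Cm n) 1 M] [IsManifold 𝓘(ℝ, Cm n) ∞ M]
  [RiemannianBundle (fun x : M => TangentSpace 𝓘(ℝ, Cm n) x)]
  [IsContMDiffRiemannianBundle 𝓘(ℝ, Cm n) ∞ (Cm n) (fun x : M => TangentSpace 𝓘(ℝ, Cm n) x)]
  [IsRiemannianManifold 𝓘(ℝ, Cm n) M] [CompleteSpace M] [ConnectedSpace M] [NoncompactSpace M]
  [MeasurableSpace M] [BorelSpace M] {μ : Measure M} {φ : M ≃ M}

/-- the pull-back of sections by a holomorphic isometry -/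
theorem pull (a : B1a n M) (b : B1b n M) (hv : IsVol n μ) (h : HolIso n φ) {E : Chart n M}
    (hE : Hc E) (hs : E.source = univ) (k : ℤ) :
    ∃ u : M → ℂ, (∀ q, u q ≠ 0) ∧ ∀ s, IsSec n k s → IsSec n k (fun q => u q * s (φ q)) ∧
      ∫⁻ x, ENNReal.ofReal (nrm n k (fun q => u q * s (φ q)) x) ∂μ =
        ∫⁻ x, ENNReal.ofReal (nrm n k s x) ∂μ := by
  have hE' := hc_push h hE
  have h1 : ∀ q, q ∈ E.source := fun q => hs ▸ mem_univ q
  have h2 : ∀ q, q ∈ (push h E).source := fun q => h1 (φ.symm q)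
  have h3 : ∀ q, (jacM E (chartAt (Cm n) q) q).det ^ k ≠ 0 := fun q =>
    zpow_ne_zero k (a.jac_ne E _ hE (a.chart q) q (h1 q) (mem_chart_source _ q))
  have h4 : ∀ q, (jacM (push h E) (chartAt (Cm n) q) q).det ^ k ≠ 0 := fun q =>
    zpow_ne_zero k (a.jac_ne _ _ hE' (a.chart q) q (h2 q) (mem_chart_source _ q))
  refine ⟨fun q => (jacM (push h E) (chartAt (Cm n) (φ q)) (φ q)).det ^ k /
    (jacM E (chartAt (Cm n) q) q).det ^ k, fun q => div_ne_zero (h4 _) (h3 q), fun s hs' => ?_⟩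
  set s' : M → ℂ := fun q => (jacM (push h E) (chartAt (Cm n) (φ q)) (φ q)).det ^ k /
    (jacM E (chartAt (Cm n) q) q).det ^ k * s (φ q) with hs''
  have h5 : co k s' E = co k s (push h E) := by
    funext z
    simp only [co, hs'', push_symm, Function.comp_apply]
    rw [← mul_assoc, mul_div_cancel₀ _ (h3 _)]
  have h6 : IsSec n k s' := a.sec_loc k s' fun x => ⟨E, hE, h1 x, by
    rw [h5]
    exact hs' _ hE' _ (E.map_source (h1 x))⟩
  have hm : ∀ {t : M → ℂ}, IsSec n k t → Measurable fun x => ENNReal.ofReal (nrm n k t x) :=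
    fun ht => (b.nrm_cont k _ fun e he z hz =>
      (ht e he z hz).contDiffAt.restrict_scalars ℝ).measurable.ennreal_ofReal
  refine ⟨h6, ?_⟩
  rw [hv E hE _ (hm h6) fun x hx => absurd (h1 x) hx,
    hv _ hE' _ (hm hs') fun x hx => absurd (h2 x) hx, push_target]
  refine setLIntegral_congr_fun E.open_target.measurableSet fun z hz => ?_
  rw [b.nrm_eq k s' E hE z hz, b.nrm_eq k s _ hE' z hz, h5, vd_push h hE hz]

theorem prod_mem {X ι : Type} {T : ℕ → Submodule ℂ (X → ℂ)} (h : Gr T) (S : Finset ι) {k : ι → ℕ}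
    {u : ι → X → ℂ} (hu : ∀ i, u i ∈ T (k i)) : ∏ i ∈ S, u i ∈ T (∑ i ∈ S, k i) := by
  classical
  induction S using Finset.induction_on with
  | empty => simpa using h.one
  | insert a S ha ih =>
    rw [Finset.prod_insert ha, Finset.sum_insert ha]
    exact h.mul _ _ _ (hu a) _ ih

variable (n M) in
/-- all holomorphic sections -/
def AllSec (m : ℕ) : Submodule ℂ (M → ℂ) where
  carrier := {s | IsSec n (-m) s}
  zero_mem' := fun e _ z _ => by
    have : co (-m) (0 : M → ℂ) e = fun _ => 0 := by funext z; simp [co]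
    rw [this]; exact analyticAt_const
  add_mem' := by
    intro a b ha hb e he z hz
    have : co (-m) (a + b) e = co (-m) a e + co (-m) b e := by funext z; simp [co, mul_add]
    rw [this]; exact (ha e he z hz).add (hb e he z hz)
  smul_mem' := by
    intro c a ha e he z hz
    have : co (-m) (c • a) e = fun z => c * co (-m) a e z := by
      funext z; simp [co]; ring
    rw [this]; exact analyticAt_const.mul (ha e he z hz)

/-- holomorphic isometries are polynomial -/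
theorem pol (c : Ctx n μ) {p : M} (F : Fr n μ p) (Φ : M ≃ₘ^1⟮𝓘(ℂ, Cm n), 𝓘(ℂ, Cm n)⟯ Cm n)
    (hΦ : ∀ i, ∃ k, ∃ a ∈ F.Tame k, ∃ b ∈ F.Tame k, b ≠ 0 ∧ ∀ q, b q ≠ 0 → Φ q i = a q / b q)
    (h : HolIso n φ) (i : Fin n) :
    ∃ R : MvPolynomial (Fin n) ℂ, ∀ z, Φ (φ (Φ.symm z)) i = MvPolynomial.eval z R := by
  classical
  have A := all c
  have a := A.a
  have hE : Hc (Φ.toHomeomorph.toOpenPartialHomeomorph : Chart n M) :=
    OpenPartialHomeomorph.mem_maximalAtlas_of_contMDiffOn _ Φ.contMDiff.contMDiffOn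
      Φ.symm.contMDiff.contMDiffOn
  have hpull := pull a A.b c.vol h hE rfl
  have hgen : ∀ {k : ℕ} {τ : M → ℂ}, IsSec n (-k) τ → τ ≠ 0 → ∀ᶠ y in gen a, τ y ≠ 0 :=
    fun h1 h2 => ⟨_, _, h1, h2, fun _ h => h⟩
  have hgen' : ∀ {k : ℕ} {τ : M → ℂ}, IsSec n (-k) τ → τ ≠ 0 → ∀ᶠ y in gen a, τ (φ y) ≠ 0 := by
    intro k τ h1 h2
    obtain ⟨u, hu, h3⟩ := hpull (-k)
    obtain ⟨y, hy⟩ := Function.ne_iff.1 h2
    refine (hgen (h3 τ h1).1 fun h4 => ?_).mono fun y hy => right_ne_zero_of_mul hy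
    have h5 := congrFun h4 (φ.symm y)
    rw [φ.apply_symm_apply] at h5
    exact mul_ne_zero (hu _) hy h5
  obtain ⟨e, he, hx, m, hm, s₀, s, h₀, hs, hne, hb⟩ := A.pk3 p
  have hs0 : s₀ ≠ 0 := fun h => hne (congrFun h p)
  obtain ⟨C, hC⟩ := dim_tame A.ord A.jet F
  have gT : Gr F.Tame := ⟨one_tame F, fun _ _ _ hs _ ht => mul_tame a F hs ht⟩
  have one : IsSec n (-((0 : ℕ) : ℤ)) (1 : M → ℂ) := (one_tame F).1
  have gA : Gr (AllSec n M) := ⟨one, fun _ _ _ hs _ ht => sec_mul a hs ht⟩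
  have hneA : ∀ m, ∀ s ∈ AllSec n M m, s ≠ 0 → ∀ᶠ y in gen a, s y ≠ 0 := fun _ _ h1 h2 =>
    hgen h1 h2
  have hol : ∀ {f : M → ℂ}, MDifferentiable 𝓘(ℂ, Cm n) 𝓘(ℂ, ℂ) f →
      f ∈ RA (AllSec n M) (gen a) gA hneA := fun {f} hf =>
    ⟨0, f, by simpa [AllSec] using (a.sec_zero f).2 hf, 1, one, by simp, by simp⟩
  have hpr : ∀ j, MDifferentiable 𝓘(ℂ, Cm n) 𝓘(ℂ, ℂ) fun y => Φ y j := fun j =>
    (differentiable_apply j).mdifferentiable.comp (Φ.contMDiff.mdifferentiable one_ne_zero)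
  obtain ⟨u, hu, hp⟩ := hpull (-m)
  have hin : ∀ {t}, InH n μ m t → InH n μ m fun q => u q * t (φ q) := fun ht =>
    ⟨(hp _ ht.1).1, (hp _ ht.1).2 ▸ ht.2⟩
  have hq : ∀ j y, s j (φ y) / s₀ (φ y) = u y * s j (φ y) / (u y * s₀ (φ y)) := fun j y =>
    (mul_div_mul_left _ _ (hu y)).symm
  have e0 : ∀ᶠ y in gen a, u y * s₀ (φ y) ≠ 0 :=
    (hgen' h₀.1 hs0).mono fun y hy => mul_ne_zero (hu y) hy
  choose k α hα β hβ hβ0 hk using hΦ
  have : (RI : Ideal (RA (AllSec n M) (gen a) gA hneA)).IsPrime := RI_max.isPrime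
  obtain ⟨Q, hQ, hev⟩ := trans_sub (gen a) _ RI (fun _ => mem_RI) (fun y => Φ y)
    (fun y j => s j (φ y) / s₀ (φ y)) (fun y => Φ (φ y) i) (fun j => hol (hpr j))
    (fun j => ⟨m, _, (hin (hs j)).1, _, (hin h₀).1, e0, Eventually.of_forall (hq j)⟩)
    (hol ((hpr i).comp h.hol))
    (by
      intro d hd
      by_contra h0
      have h2 := freq_ne h0 fun j => s j p / s₀ p
      rw [← map_nhds (Φ := fun y j => s j y / s₀ y) hx
        (Phi_an a h₀.1 (fun j => (hs j).1) he hx hne) hb.2, frequently_map] at h2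
      obtain ⟨w, h3, h4⟩ := (h2.and_eventually (ne_nhds a h₀.1 hne)).exists
      obtain ⟨w, rfl⟩ := φ.surjective w
      exact h3 (gen_zero a hd ((MvPolynomial.continuous_eval d).continuousAt.comp
        (continuousAt_pi.2 fun j => (ratio_cont a (hs j).1 h₀.1 h4).comp
          h.hol.continuous.continuousAt))))
    (by
      intro j
      have t₀ := tame_of_inH F hm h₀
      obtain ⟨J, hJ⟩ := count c.npos gT hC (m := m + ∑ l, k l) (by omega)
        (s₀ := s₀ * ∏ l, β l) (s := fun l => s₀ * (α l * ∏ l' ∈ Finset.univ.erase l, β l'))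
        (gT.mul _ _ _ t₀ _ (prod_mem gT _ hβ)) fun l => gT.mul _ _ _ t₀ _ (by
          rw [← Finset.add_sum_erase _ _ (Finset.mem_univ l)]
          exact gT.mul _ _ _ (hα l) _ (prod_mem gT _ hβ))
      obtain ⟨Q, q1, -, q2⟩ := hJ m _ (tame_of_inH F hm (hin (hs j))) _
        (tame_of_inH F hm (hin h₀))
      refine ⟨Q, q1, ?_⟩
      filter_upwards [e0, hgen h₀.1 hs0, eventually_all.2 fun l => hgen (hβ l).1 (hβ0 l)]
        with y e1 e2 e3
      have e4 := q2 y (mul_ne_zero e2 (by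
        rw [Finset.prod_apply]
        exact Finset.prod_ne_zero_iff.2 fun l _ => e3 l)) e1
      rw [hq]
      convert e4 using 2
      funext l
      have e5 : ∏ l' ∈ Finset.univ.erase l, β l' y ≠ 0 :=
        Finset.prod_ne_zero_iff.2 fun l _ => e3 l
      rw [hk l y (e3 l), Pi.mul_apply, Pi.mul_apply, Pi.mul_apply, Finset.prod_apply,
        Finset.prod_apply, ← Finset.mul_prod_erase _ _ (Finset.mem_univ l),
        mul_div_mul_left _ _ e2, mul_div_mul_right _ _ e5])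
    (by
      obtain ⟨J, hJ⟩ := count c.npos gT hC hm (tame_of_inH F hm h₀)
        fun j => tame_of_inH F hm (hs j)
      obtain ⟨Q, q1, -, q2⟩ := hJ _ _ (hα i) _ (hβ i)
      refine ⟨Q, q1, ?_⟩
      filter_upwards [hgen' h₀.1 hs0, hgen' (hβ i).1 (hβ0 i)] with y e1 e2
      rw [hk i _ e2]
      exact q2 _ e1 e2)
  refine ent (S := Q) ?_ hQ fun z => ?_
  · exact mdifferentiable_iff_differentiable.1 (((hpr i).comp h.hol).comp
      (Φ.symm.contMDiff.mdifferentiable one_ne_zero))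
  · have h2 := gen_zero a hev (y := Φ.symm z) ((continuous_ev Q).continuousAt.comp₂
      Φ.continuous.continuousAt ((hpr i).comp h.hol).continuous.continuousAt)
    rwa [Φ.apply_symm_apply] at h2

end Vale.Agent.P253Y.H2
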