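import Vale.Agent.P253Z.Stmt
import Vale.Agent.P253Y.H2.Defs
import Vale.Agent.P253Y.H2.Pol
import Vale.Agent.P253Y.H2.Fix

/-!
# P253Y, block H2: from the universal covering to the manifold
-/

open scoped Manifold ContDiff Bundle Topology
open Bundle IsManifold MeasureTheory Set Metric Filter Vale.Agent.P253.Mfd Vale.Agent.P253Z
open Vale.Agent.P272.K (Cm)

set_option linter.unusedSectionVars false

noncomputable section

namespace Vale.Agent.P253Y.H2

open Vale.Agent.P211Z Vale.Agent.P253Z.Cov

/-- a deck transformation with finite orbit, all of whose powers of prime order have a fixed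
point, is the identity -/
theorem deck_one {N M : Type} [TopologicalSpace N] [TopologicalSpace M] [PreconnectedSpace N]
    {ϖ : N → M} (hq₀ : IsCoveringMap ϖ) (δ : N ≃ₜ N) (hδ : ∀ v, ϖ (δ v) = ϖ v) (y : N)
    (hfin : (range fun k : ℕ => (δ ^ k) y).Finite)
    (hfix : ∀ (k p : ℕ), p.Prime → (δ ^ k) ^ p = 1 → ∃ v, (δ ^ k) v = v) : δ = 1 := by
  have hk : ∀ (k : ℕ) v, ϖ ((δ ^ k) v) = ϖ v := by
    intro k
    induction k with
    | zero => intro v; rfl
    | succ k ih => intro v; rw [pow_succ]; exact (ih _).trans (hδ v)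
  have huniq : ∀ (k l : ℕ) v, (δ ^ k) v = (δ ^ l) v → δ ^ k = δ ^ l := fun k l v h =>
    Homeomorph.ext (congrFun (hq₀.eq_of_comp_eq (δ ^ k).continuous (δ ^ l).continuous
      (funext fun w => (hk k w).trans (hk l w).symm) v h))
  have hord : IsOfFinOrder δ := by
    by_contra h
    exact infinite_range_of_injective (fun k l hkl =>
      injective_pow_iff_not_isOfFinOrder.2 h (huniq k l y hkl)) hfin
  by_contra h1
  obtain ⟨p, hp, q, hq⟩ := Nat.exists_prime_and_dvd (mt orderOf_eq_one_iff.1 h1)
  obtain ⟨v, hv⟩ := hfix q p hp (by rw [← pow_mul, mul_comm, ← hq, pow_orderOf_eq_one])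
  have h2 : δ ^ q = 1 := (huniq q 0 v hv).trans (pow_zero δ)
  have h3 := hord.orderOf_pos
  have h4 := Nat.le_of_dvd (Nat.pos_of_mul_pos_left (hq ▸ h3)) (orderOf_dvd_of_pow_eq_one h2)
  have h5 := hp.two_le
  nlinarith

/-- **H2** -/
theorem yau_of {n : ℕ} (h : SC n) {M : Type} [MetricSpace M] [ChartedSpace (Cm n) M]
    [Metr (Cm n) M] (hM : IsYau (Cm n) M) :
    Nonempty (M ≃ₘ^1⟮𝓘(ℂ, Cm n), 𝓘(ℂ, Cm n)⟯ Cm n) := by
  obtain ⟨_, _, _, _, _, _, hK, hp⟩ := hM
  obtain ⟨N, _, _, _, _, _, _, _, ϖ, hsc, hq₀, hC, hgal⟩ := exists_univ (Cm n) M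
  have : ProperSpace M := properSpace_riemannian (Cm n) M
  have : CompleteSpace N := complete_of_cov hq₀.covering
    (dist_map_le hq₀.localDiffeo.contMDiff hq₀.isometric) (isPreconnected_ball_riem (Cm n))
  have : ProperSpace N := properSpace_riemannian (Cm n) N
  have : NoncompactSpace N := ⟨fun h => by
    have h1 := h.image hq₀.covering.continuous
    rw [image_univ, hq₀.surjective.range_eq] at h1
    exact noncompact_univ M h1⟩
  have hK' : IsKahler (Cm n) N := kahler_up hq₀ hC hK
  have hp' : ∀ y : N, PosBisectionalAt (Cm n) y := fun y => pos_up hq₀ hC (hp _)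
  borelize N
  obtain ⟨μ, c⟩ := exists_ctx hK' hp'
  obtain ⟨p, F, Φ, hΦ⟩ := h N μ c hsc
  have hiso : ∀ δ : N ≃ₜ N, (∀ v, ϖ (δ v) = ϖ v) → HolIso n δ.toEquiv := fun δ hδ =>
    ⟨deck_holo hC δ.continuous hδ, deck_holo hC δ.symm.continuous fun v => by
      rw [← hδ]
      exact congrArg ϖ (δ.apply_symm_apply v), deck_isom hq₀ δ.continuous hδ⟩
  have hinj : Function.Injective ϖ := by
    intro y y' hy
    obtain ⟨δ, hδ, rfl⟩ := hgal y y' hy
    have hk : ∀ (k : ℕ) v, ϖ ((δ ^ k) v) = ϖ v := by
      intro k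
      induction k with
      | zero => intro v; rfl
      | succ k ih => intro v; rw [pow_succ]; exact (ih _).trans (hδ v)
    have h1 : δ = 1 := by
      refine deck_one hq₀.covering δ hδ y ?_ fun k q hq hkq => ?_
      · obtain ⟨R, hR⟩ := orbit_bdd hK' hp' y
        have h1 : (ϖ ⁻¹' {ϖ y} ∩ closedBall y R).Finite :=
          ((isCompact_closedBall y R).inter_left
            (isClosed_singleton.preimage hq₀.covering.continuous)).finite
            ⟨DiscreteTopology.of_subset (hq₀.covering (ϖ y)).discreteTopology_fiber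
              inter_subset_left⟩
        refine h1.subset ?_
        rintro _ ⟨k, rfl⟩
        exact ⟨hk k y, hR _ (hiso _ (hk k))⟩
      · choose P hP using pol c F Φ hΦ (hiso _ (hk k))
        have h2 : (fun w i => MvPolynomial.eval w (P i)) = fun w => Φ ((δ ^ k) (Φ.symm w)) :=
          funext fun w => funext fun i => (hP i w).symm
        have h3 : ∀ (l : ℕ) z, (fun w => Φ ((δ ^ k) (Φ.symm w)))^[l] z =
            Φ (((δ ^ k) ^ l) (Φ.symm z)) := by
          intro l
          induction l with
          | zero => intro z; exact (Φ.apply_symm_apply z).symm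
          | succ l ih =>
            intro z
            rw [Function.iterate_succ_apply, ih, Φ.symm_apply_apply, pow_succ]
            rfl
        obtain ⟨z, hz⟩ := fix hq P fun z => by
          rw [h2, h3, hkq]
          exact Φ.apply_symm_apply z
        refine ⟨Φ.symm z, Φ.injective ?_⟩
        refine (funext fun i => (hP i z).trans (hz i)).trans (Φ.apply_symm_apply z).symm
    rw [h1]
    rfl
  exact ⟨(hC.diffeomorphOfBijective ⟨hinj, hq₀.surjective⟩).symm.trans Φ⟩

end Vale.Agent.P253Y.H2
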